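import Crest.Agent.N325.P2.Defs

/-!
# Row 325, part II (helper46): the main loop and the phases — programs and the two extra specifications
-/

set_option autoImplicit false
open Finset

namespace Crest.Agent.N325.P2

open Crest.Agent.N325.Tw Crest.Agent.N325.Ip Crest.Agent.N325.Mt Crest.Agent.N325.Bf

namespace Cx
variable {T : Type} (X : Cx T)

/-- INIT: a fresh network for the matching `m` on the tower `t` -/
def InitSpec (ini : T → Arr ℕ → R (S T)) (T0 : ℕ) : Prop :=
  ∀ (t : T) (m : Arr ℕ), X.Sh t → IsM (range X.G.n) X.G.E m.get →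
    Sp X.g (ini t m) fun s u => ∃ N, X.Inv s N ∧ (∀ v < X.G.n, s.2.mt.get v = m.get v) ∧
      u + X.Tot s N ≤ T0 + X.κ * (X.Au * ((ex (range X.G.n) m.get : ℝ) - X.xm))

/-- END: no event is left -/
def EndSpec (c0 : ℕ) : Prop :=
  ∀ s N, X.Inv s N → X.Good s.2 N → s.2.Q = [] → ∀ m, IsM (range X.G.n) X.G.E m →
    ex (range X.G.n) s.2.mt.get * X.C.B ≤ ex (range X.G.n) m * X.C.B + c0 * X.G.n * X.P.D

end Cx

instance (G : Gf) (d : Dt) (e : ℕ) : Decidable (has G d e) := by unfold has; infer_instance

section prog
variable {T : Type} (E : Env T)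
  (lab unl : S T → ℕ → R (S T)) (ins edg : S T → ℕ → List ℕ → R (S T))

/-- the head of the work list -/
def stepQ (s : S T) : R (S T × Bool × Bool) :=
  List.casesOn s.2.Q (pure (s, false, false)) fun o q =>
    if Done E.G s.2 o then pure ((s.1, { s.2 with Q := q }), false, true)
    else if s.2.st.get (E.G.hd o) = 2 then edg s o q >>= fun s' => pure (s', true, true)
    else ins s o q >>= fun s' => pure (s', true, true)

/-- the head of the log -/
def stepL (s : S T) (e : ℕ) (l : List ℕ) : R (S T × Bool × Bool) :=
  if has E.G s.2 e ∧ trig E.P.D E.C (s.1.arc.get e) (s.1.rf.get e) then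
    if e % 5 = 2 then unl s (e / 5) >>= fun s' => pure (s', true, true)
    else lab s (e / 5) >>= fun s' => pure (s', true, true)
  else pure (({ s.1 with log := l }, s.2), false, true)

/-- one turn; the state carries the flags `dirty` and `go` -/
def step (u : S T × Bool × Bool) : R (S T × Bool × Bool) :=
  if u.2.1 = true then qui E.run E.P u.1.1 >>= fun s => pure ((s, u.1.2), false, true)
  else List.casesOn u.1.1.log (stepQ E ins edg u.1) (stepL E lab unl u.1)

/-- the main loop -/
def loop (s : S T) : R (S T) :=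
  whileF (fun u => u.2.2) (step E lab unl ins edg) E.P.fu (s, true, true) >>= fun u => pure u.1

/-- one phase -/
def phase (ini : T → Arr ℕ → R (S T)) (u : T × Arr ℕ) : R (T × Arr ℕ) :=
  ini u.1 u.2 >>= fun s => loop E lab unl ins edg s >>= fun s' => pure (s'.1.tw, s'.2.mt)

end prog

end Crest.Agent.N325.P2
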