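import Crest.Agent.N325.Ml.Loop
import Crest.Agent.N325.Lst.ListR

/-!
# Row 325, part II (helper46): the phases
-/

set_option autoImplicit false
open Finset

namespace Crest.Agent.N325.P2

open Crest.Agent.N325.Tw Crest.Agent.N325.Ip Crest.Agent.N325.Mt Crest.Agent.N325.Bf

variable {T : Type} (lab unl : Env T → S T → ℕ → R (S T))
  (ins edg : Env T → S T → ℕ → List ℕ → R (S T)) (ini : Env T → T → Arr ℕ → R (S T))

/-- one phase in the environment `E` -/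
def phaseE (E : Env T) (u : T × Arr ℕ) : R (T × Arr ℕ) :=
  phase E (lab E) (unl E) (ins E) (edg E) (ini E) u

/-- all phases, from the empty matching; `cf j` computes the parameters of the phase `j` -/
def p2 (run : Cmd × T → R (T × Rep × Bool)) (P : Pm) (G : Gf) (cf : ℕ → R Cf) (kb0 J : ℕ)
    (t0 : T) : R (Arr ℕ) :=
  tabP (fun v => v) G.n (.cst 0) >>= fun m =>
    forN (fun j u => call cf j >>= fun C => phaseE lab unl ins edg ini ⟨run, P, C, G⟩ u) J kb0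
      (t0, m) >>= fun u => pure u.2

/-- what a phase needs -/
structure Ph (c0 : ℕ) (X : Cx T) : Prop where
  ok : X.Ok
  lab : X.LabelSpec (lab X.toEnv)
  unl : X.UnlabSpec (unl X.toEnv)
  ins : X.InsSpec (ins X.toEnv)
  edg : X.EdgeSpec (edg X.toEnv)
  ini : ∃ T0 : ℕ, X.InitSpec (ini X.toEnv) T0 ∧ ∀ gap : ℕ,
    gap * X.C.B ≤ 2 * c0 * X.G.n * X.P.D →
      T0 + X.κ * X.Au * gap + X.k.AQ + 2 + X.Rm * (2 * X.k.AU) ≤ X.Bd.F
  fin : X.EndSpec c0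
  fu : X.Bd.F < X.P.fu
  att : ∃ m, IsM (range X.G.n) X.G.E m ∧ ex (range X.G.n) m = X.xm

variable {lab unl ins edg ini} {c0 : ℕ}

theorem Ph.sp {X : Cx T} (p : Ph lab unl ins edg ini c0 X) {u : T × Arr ℕ} (sh : X.Sh u.1)
    (hm : IsM (range X.G.n) X.G.E u.2.get)
    (gp : ∀ m, IsM (range X.G.n) X.G.E m → ex (range X.G.n) u.2.get * X.C.B ≤
      ex (range X.G.n) m * X.C.B + 2 * c0 * X.G.n * X.P.D) :
    Sp X.g (phaseE lab unl ins edg ini X.toEnv u) fun u' t => X.Sh u'.1 ∧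
      IsM (range X.G.n) X.G.E u'.2.get ∧ (∀ m, IsM (range X.G.n) X.G.E m →
        ex (range X.G.n) u'.2.get * X.C.B ≤ ex (range X.G.n) m * X.C.B + c0 * X.G.n * X.P.D) ∧
      t ≤ X.Bd.F + 1 := by
  obtain ⟨T0, hi, hT⟩ := p.ini
  obtain ⟨m0, i0, e0⟩ := p.att
  obtain ⟨gap, eg⟩ := Nat.exists_eq_add_of_le (p.ok.xm _ hm)
  have g1 := gp m0 i0
  rw [eg, e0, add_mul] at g1
  have g2 : ((T0 + X.κ * X.Au * gap + X.k.AQ + 2 + X.Rm * (2 * X.k.AU) : ℕ) : ℝ) ≤ X.Bd.F := by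
    exact_mod_cast hT gap (by omega)
  push_cast at g2
  refine (hi u.1 u.2 sh hm).bind ?_
  rintro s t ⟨N, i, -, a⟩
  rw [eg] at a
  push_cast at a
  have t0 : (0 : ℝ) ≤ t := Nat.cast_nonneg _
  have r0 : (0 : ℝ) ≤ X.Rm * (2 * X.k.AU) := by positivity
  refine (Cx.sp_loop p.ok p.lab p.unl p.ins p.edg p.fu i le_rfl (by linarith)).bind ?_
  rintro s' t' ⟨N', i', gd, q, b⟩
  refine ⟨p.ok.ip.sh i'.il.1, i'.cmb.isM, p.fin s' N' i' gd q, ?_⟩
  have : ((t + (t' + 0) : ℕ) : ℝ) ≤ (X.Bd.F + 1 : ℕ) := by push_cast; linarith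
  exact_mod_cast this

/-- **part II**: all phases -/
theorem sp_p2 {run : Cmd × T → R (T × Rep × Bool)} {P : Pm} {G : Gf} {cf : ℕ → R Cf}
    {kb0 J F : ℕ} {g : Gl} {Sh : T → Prop} {t0 : T} (X : ℕ → Cx T)
    (hX : ∀ j, kb0 ≤ j → j < kb0 + J → Ph lab unl ins edg ini c0 (X j) ∧ (X j).run = run ∧
      (X j).P = P ∧ (X j).G = G ∧ (X j).g = g ∧ (X j).Sh = Sh ∧ (X j).C.kb = j ∧
      (X j).Bd.F = F ∧ Sp g (cf j) fun C t => C = (X j).C ∧ t ≤ F)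
    (hJ : 0 < J) (h0 : 2 ^ kb0 ≤ 2 * c0 * P.D) (sh : Sh t0) :
    Sp g (p2 lab unl ins edg ini run P G cf kb0 J t0) fun m t =>
      IsM (range G.n) G.E m.get ∧ (∀ m2, IsM (range G.n) G.E m2 →
        ex (range G.n) m.get * 2 ^ (kb0 + J - 1) ≤
          ex (range G.n) m2 * 2 ^ (kb0 + J - 1) + c0 * G.n * P.D) ∧
      t ≤ J * (2 * F + 9) + G.n + 9 := by
  refine (sp_tabP _ _ _).bind fun m t1 ⟨a, e1⟩ => ?_
  refine (sp_forN' (fun j (u : T × Arr ℕ) => Sh u.1 ∧ IsM (range G.n) G.E u.2.get ∧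
    ∀ m2, IsM (range G.n) G.E m2 →
      ex (range G.n) u.2.get * 2 ^ j ≤ ex (range G.n) m2 * 2 ^ j + 2 * c0 * G.n * P.D) (2 * F + 2)
    ?_ ⟨sh, isM_id.congr fun v hv => (a v).trans (if_pos (mem_range.1 hv)), fun m2 _ => ?_⟩).bind ?_
  · rintro j u a b ⟨s1, s2, s3⟩
    obtain ⟨p, rfl, rfl, rfl, rfl, rfl, k, rfl, c⟩ := hX j a b
    refine sp_bind.2 (sp_call.2 (c.mono ?_))
    rintro _ t ⟨rfl, c⟩
    have e := p.ok.B.1
    rw [k] at e
    refine (p.sp s1 s2 (e ▸ s3)).mono ?_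
    rintro u' t' ⟨z1, z2, z3, z4⟩
    refine ⟨⟨z1, z2, fun m2 i2 => ?_⟩, by omega⟩
    have := z3 m2 i2
    rw [e] at this
    rw [pow_succ]
    linarith
  · have := ex_le (V := range G.n) (m := m.get)
    rw [card_range] at this
    have := Nat.mul_le_mul this h0
    exact le_add_left (this.trans_eq (by ring))
  · rintro u t ⟨⟨-, z2, z3⟩, z4⟩
    refine ⟨z2, fun m2 i2 => ?_, ?_⟩
    · have := z3 m2 i2
      rw [show kb0 + J = kb0 + J - 1 + 1 by omega, pow_succ] at this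
      linarith
    · have := Nat.mul_le_mul_left J (by omega : 2 * F + 2 + 1 ≤ 2 * F + 9)
      omega

end Crest.Agent.N325.P2
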