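import Crest.Agent.N325.Ml.Phase
import Crest.Agent.N325.P2.Rp
import Crest.Agent.N325.Lst.ListImpl

/-!
# Row 325, part II (helper46): the main loop and the phases are implementable
-/

set_option autoImplicit false

namespace Crest.Agent.N325.P2

open Crest.Agent.N325.Tw Crest.Agent.N325.Ip Crest.Agent.N325.Mt Crest.Agent.N325.Bf

variable {α T : Type} [Rp α] [Rp T] {lab unl : Env T → S T → ℕ → R (S T)}
  {ins edg : Env T → S T → ℕ → List ℕ → R (S T)} {ini : Env T → T → Arr ℕ → R (S T)}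
  (hl : Impl fun p : Env T × S T × ℕ => lab p.1 p.2.1 p.2.2)
  (hu : Impl fun p : Env T × S T × ℕ => unl p.1 p.2.1 p.2.2)
  (hi : Impl fun p : Env T × S T × ℕ × List ℕ => ins p.1 p.2.1 p.2.2.1 p.2.2.2)
  (he : Impl fun p : Env T × S T × ℕ × List ℕ => edg p.1 p.2.1 p.2.2.1 p.2.2.2)
  (hn : Impl fun p : Env T × T × Arr ℕ => ini p.1 p.2.1 p.2.2)

include hl hu hi he hn in
theorem impl_phaseE : Impl fun p : Env T × T × Arr ℕ => phaseE lab unl ins edg ini p.1 p.2 := by
  unfold phaseE phase loop step stepQ stepL; impl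

include hl hu hi he hn in
theorem impl_p2 {run : α → Cmd × T → R (T × Rep × Bool)} {P : α → Pm} {G : α → Gf}
    {cf : α → ℕ → R Cf} {kb0 J : α → ℕ} {t0 : α → T} (hr : Pu true run) (hP : Pu true P)
    (hG : Pu true G) (hc : Impl fun p : α × ℕ => cf p.1 p.2) (hk : Pu true kb0)
    (hJ : Pu true J) (ht : Pu true t0) :
    Impl fun a => p2 lab unl ins edg ini (run a) (P a) (G a) (cf a) (kb0 a) (J a) (t0 a) := by
  have h := impl_phaseE hl hu hi he hn
  have k : Impl fun p : (α × (Cmd × T → R (T × Rep × Bool))) => p2 lab unl ins edg ini p.2 (P p.1)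
      (G p.1) (cf p.1) (kb0 p.1) (J p.1) (t0 p.1) := by
    unfold p2; impl
  exact k.comp (Pu.id.pair hr)

end Crest.Agent.N325.P2
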