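import Crest.Agent.N325.M0.Mon

/-!
# Row 325 (helper46): while loops paid by a real budget
-/

set_option autoImplicit false

namespace Crest.Agent.N325.Ml

variable {σ : Type} {g : Gl}

/-- `J s x`: the state `s` is fine and the remaining budget is `x`; every turn is paid by it -/
theorem sp_whileR {c : σ → Bool} {f : σ → R σ} (J : σ → ℝ → Prop)
    (h0 : ∀ s x, J s x → 0 ≤ x)
    (h : ∀ s x, J s x → c s = true → Sp g (f s) fun s' u => J s' (x - 1 - u))
    {n : ℕ} {s : σ} {x : ℝ} (hs : J s x) (hn : x < n) :
    Sp g (whileF c f n s) fun s' u => c s' = false ∧ J s' (x + 1 - u) := by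
  induction n generalizing s x with
  | zero => exact absurd (h0 s x hs) (by simpa using hn)
  | succ n ih =>
    refine ⟨Nat.zero_le _, ?_⟩
    by_cases e : c s = true
    · rw [if_pos e]
      refine (h s x hs e).bind fun s' u k => (ih k ?_).mono ?_
      · have : (0 : ℝ) ≤ u := Nat.cast_nonneg u
        push_cast at hn; linarith
      · rintro s'' v ⟨a, k'⟩
        refine ⟨a, ?_⟩
        convert k' using 1
        push_cast; ring
    · rw [if_neg e]
      refine ⟨Bool.eq_false_iff.2 e, ?_⟩
      simpa using hs

/-- the same for a fold: the budget may depend on the rest of the list -/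
theorem sp_foldR {α : Type} {f : α → σ → R σ} (J : List α → σ → ℝ → Prop)
    (h : ∀ a l s x, J (a :: l) s x → Sp g (f a s) fun s' u => J l s' (x - 1 - u))
    {l : List α} {s : σ} {x : ℝ} (hs : J l s x) :
    Sp g (foldL f l s) fun s' u => J [] s' (x + 1 - u) := by
  induction l generalizing s x with
  | nil => exact ⟨Nat.zero_le _, show J [] s (x + 1 - ((1 + 0 : ℕ) : ℝ)) by simpa using hs⟩
  | cons a l ih =>
    refine ⟨Nat.zero_le _, (h a l s x hs).bind fun s' u k => (ih k).mono fun s'' v k' => ?_⟩
    convert k' using 1
    push_cast; ring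

end Crest.Agent.N325.Ml
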