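import Crest.Agent.N325.Ml.Sgn
import Crest.Agent.N325.Ml.While

/-!
# Row 325, part II (helper46): the main loop
-/

set_option autoImplicit false
open Finset

namespace Crest.Agent.N325.P2

open Crest.Agent.N325.Tw Crest.Agent.N325.Ip Crest.Agent.N325.Mt Crest.Agent.N325.Bf

namespace Cx
variable {T : Type} (X : Cx T)

/-- the invariant of the loop with the budget `x` -/
def LJ (u : S T × Bool × Bool) (x : ℝ) : Prop :=
  ∃ N, X.Inv u.1 N ∧ (u.2.1 = false → Quiet X.P N) ∧
    (u.2.2 = false → u.2.1 = false ∧ u.1.1.log = [] ∧ u.1.2.Q = []) ∧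
    X.Tot u.1 N + (if u.2.1 = true then (X.k.AQ : ℝ) + 1 else 0) + (if u.2.2 = true then (1 : ℝ) else 0) ≤ x ∧
    x + X.Rm * (2 * X.k.AU) ≤ X.Bd.F + 1

variable {X} {lab unl : S T → ℕ → R (S T)} {ins edg : S T → ℕ → List ℕ → R (S T)}

theorem LJ.nonneg (h : X.Ok) {u : S T × Bool × Bool} {x : ℝ} (k : X.LJ u x) : 0 ≤ x := by
  obtain ⟨N, i, -, -, a, -⟩ := k
  obtain ⟨p, q, -⟩ := h.Pt_le (s := u.1.1) (d := u.1.2) i
  have : (0 : ℝ) ≤ if u.2.1 = true then (X.k.AQ : ℝ) + 1 else 0 := by split_ifs <;> positivity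
  have : (0 : ℝ) ≤ if u.2.2 = true then (1 : ℝ) else 0 := by split_ifs <;> positivity
  exact le_trans (by change _ ≤ X.Tot (u.1.1, u.1.2) N + _ + _; linarith) a

theorem Post.lj (h : X.Ok) {s s' : S T} {N : Net} {t : ℕ} {x : ℝ} (p : X.Post s N s' t)
    (a : X.Tot s N + 0 + 1 ≤ x) (b : x + X.Rm * (2 * X.k.AU) ≤ X.Bd.F + 1) :
    X.LJ (s', true, true) (x - 1 - (t + 0 : ℕ)) := by
  obtain ⟨N', i, p⟩ := p
  have k : (25000 : ℝ) * (X.k.AU + X.k.AQ + X.k.cl + 1) ≤ X.κ := by exact_mod_cast h.κ_le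
  have : (0 : ℝ) ≤ X.k.AU := Nat.cast_nonneg _
  have : (0 : ℝ) ≤ X.k.AQ := Nat.cast_nonneg _
  have : (0 : ℝ) ≤ X.k.cl := Nat.cast_nonneg _
  have : (0 : ℝ) ≤ t := Nat.cast_nonneg _
  refine ⟨N', i, fun k => by simp at k, fun k => by simp at k, ?_, ?_⟩
  · simp only [if_true, add_zero]; linarith
  · simp only [add_zero]; linarith

theorem sp_step (h : X.Ok) (hl : X.LabelSpec lab) (hu : X.UnlabSpec unl) (hi : X.InsSpec ins)
    (he : X.EdgeSpec edg) (u : S T × Bool × Bool) (x : ℝ) (k : X.LJ u x) (go : u.2.2 = true) :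
    Sp X.g (step X.toEnv lab unl ins edg u) fun u' t => X.LJ u' (x - 1 - t) := by
  obtain ⟨⟨s, d⟩, dy, g⟩ := u
  obtain ⟨N, i, hq, -, a, b⟩ := k
  obtain rfl : g = true := go
  obtain ⟨p0, p1, p2⟩ := h.Pt_le i
  have r0 : (0 : ℝ) ≤ X.Rm * (2 * X.k.AU) := by positivity
  have q0 : (0 : ℝ) ≤ X.k.AQ := Nat.cast_nonneg _
  cases dy with
  | true =>
    simp only [if_true] at a
    rw [step, if_pos rfl]
    refine (h.ip.qui i.il.1 (by linarith)).bind ?_
    rintro s' t ⟨c, c1, i', q, dp, n, u1, u2, u3, u4⟩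
    refine ⟨N.add c, ⟨⟨i', fun e m tr => ?_⟩, ⟨i.arcs.mem, i.arcs.arc, ?_⟩, i.cmb, i.q⟩,
      fun _ => q, nofun, ?_, ?_⟩
    · rw [u1]
      by_cases z : e ∈ n
      · exact List.mem_append_left _ z
      · rw [u3 e z] at tr
        exact List.mem_append_right _ (i.il.2 e m tr)
    · exact (i.arcs.cons.add c1).circ
    · have f : (X.k.AP : ℝ) ≤ X.κ := by exact_mod_cast le_of_add_le_left h.κ
      have := mul_le_mul_of_nonneg_right f (sub_nonneg.2 dp)
      simp only [Tot, Pt, u1, List.length_append, Bool.false_eq_true, if_false, if_true] at a ⊢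
      push_cast
      linarith
    · have : (0 : ℝ) ≤ (t + 0 : ℕ) := Nat.cast_nonneg _
      linarith
  | false =>
    simp only [Bool.false_eq_true, if_false, if_true] at a
    have q := hq rfl
    have rm : X.Room (s, d) := by change X.Pt s + _ ≤ _; linarith
    rw [step, if_neg Bool.false_ne_true]
    rcases el : s.log with _ | ⟨e, l⟩
    · have gd : X.Good d N := ⟨q, h.calm i el⟩
      change Sp _ (stepQ X.toEnv ins edg (s, d)) _
      rw [stepQ]
      rcases eq : d.Q with _ | ⟨o, w⟩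
      · exact ⟨N, i, hq, fun _ => ⟨rfl, el, eq⟩, by simpa using (by linarith), by
          simpa using (by linarith)⟩
      · change Sp _ (if _ then _ else if _ then _ else _) _
        split_ifs with c1 c2
        · refine ⟨N, ⟨i.il, ⟨i.arcs.mem, i.arcs.arc, i.arcs.circ⟩, { i.cmb with }, 
            i.q.pop h.wf i.cmb eq c1⟩, hq, nofun, ?_, by simpa using (by linarith)⟩
          have z := X.Psi_Q (d := d) d.pr w
          have z1 : (20000 : ℝ) ≤ X.C.Z := by exact_mod_cast h.Z_pos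
          have z2 : (25000 : ℝ) ≤ X.κ := by
            have := h.κ_le; exact_mod_cast (by omega : 25000 ≤ X.κ)
          rw [eq] at z
          simp only [Tot, Bool.false_eq_true, if_false, if_true] at a ⊢
          change X.Ψ { d with Q := w } = _ at z
          rw [z]
          simp only [List.length_cons]
          push_cast
          nlinarith
        · exact (he _ N o w i rm gd eq c1 c2).bind fun s' t p => p.lj h a b
        · exact (hi _ N o w i rm gd eq c1 c2).bind fun s' t p => p.lj h a b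
    · change Sp _ (stepL X.toEnv lab unl (s, d) e l) _
      rw [stepL]
      split_ifs with c1 c2
      · rcases h.trig_cases i c1.1 c1.2 with z | z
        · exact (hu _ N _ i rm q z.2.1 z.2.2).bind fun s' t p => p.lj h a b
        · exact absurd c2 z.1
      · rcases h.trig_cases i c1.1 c1.2 with z | z
        · exact absurd z.1 c2
        · exact (hl _ N _ i rm q z.2.1 z.2.2.1 z.2.2.2).bind fun s' t p => p.lj h a b
      · obtain ⟨i1, i2⟩ := h.ip.setLog l i.il.1
        refine ⟨N, ⟨⟨i1, fun e' m tr => ?_⟩, i.arcs, i.cmb, i.q⟩, hq, nofun, ?_,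
          by simpa using (by linarith)⟩
        · rcases List.mem_cons.1 (el ▸ i.il.2 e' m tr) with rfl | z
          · exact absurd ⟨(i.arcs.mem _).1 m, (h.ip.view i.il.1 _ m).1 ▸ tr⟩ c1
          · exact z
        · have z : (100 : ℝ) ≤ X.k.cl := by exact_mod_cast h.cl
          simp only [Tot, Pt, el, List.length_cons, Bool.false_eq_true, if_false, if_true] at a ⊢
          rw [i2]
          push_cast at a ⊢
          linarith

/-- **the main loop** -/
theorem sp_loop (h : X.Ok) (hl : X.LabelSpec lab) (hu : X.UnlabSpec unl) (hi : X.InsSpec ins)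
    (he : X.EdgeSpec edg) (hf : X.Bd.F < X.P.fu) {s : S T} {N : Net} (i : X.Inv s N) {x : ℝ}
    (a : X.Tot s N + X.k.AQ + 2 ≤ x) (b : x + X.Rm * (2 * X.k.AU) ≤ X.Bd.F) :
    Sp X.g (loop X.toEnv lab unl ins edg s) fun s' t => ∃ N', X.Inv s' N' ∧ X.Good s'.2 N' ∧
      s'.2.Q = [] ∧ (t : ℝ) ≤ x + 1 := by
  have r0 : (0 : ℝ) ≤ X.Rm * (2 * X.k.AU) := by positivity
  have f : (X.Bd.F : ℝ) < X.P.fu := by exact_mod_cast hf
  refine (Ml.sp_whileR X.LJ (fun _ _ k => k.nonneg h) (sp_step h hl hu hi he) (x := x)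
    ⟨N, i, fun k => by simp at k, fun k => by simp at k, by simp only [if_true]; linarith, by linarith⟩ (by linarith)).bind ?_
  rintro u t ⟨go, k⟩
  have z := k.nonneg h
  obtain ⟨N', i', q, e, -⟩ := k
  obtain ⟨e1, e2, e3⟩ := e go
  exact ⟨N', i', ⟨q e1, h.calm (s := u.1.1) (d := u.1.2) i' e2⟩, e3, by
    simp only [add_zero]; linarith⟩

end Cx

end Crest.Agent.N325.P2
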