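import Crest.Agent.N325.Ml.Defs
import Crest.Agent.N325.P2.Util

/-!
# Row 325, part II (helper46): signs of the potentials, the log, skipped darts
-/

set_option autoImplicit false
open Finset

namespace Crest.Agent.N325.P2

open Crest.Agent.N325.Tw Crest.Agent.N325.Ip Crest.Agent.N325.Mt Crest.Agent.N325.Bf

theorem Cmb.sum_cw {G : Gf} {d : Dt} (h : Cmb G d) :
    ∑ c ∈ (range G.n).filter (isC G d), d.cw.get c = #((range G.n).filter (d.st.get · = 2)) := by
  rw [card_eq_sum_card_fiberwise (f := d.cls.get) (t := (range G.n).filter (isC G d))]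
  · refine sum_congr rfl fun c hc => ?_
    have k := (mem_filter.1 hc).2
    rw [h.cw c k, ← List.toFinset_card_of_nodup (h.nodup c k)]
    congr 1
    ext v
    simp only [List.mem_toFinset, h.mem c k, mem_filter, mem_range, and_assoc]
  · intro v hv
    simp only [coe_filter, mem_range, Set.mem_ofPred_eq] at hv ⊢
    exact ⟨(h.out v hv.1 hv.2).1, h.out v hv.1 hv.2⟩

theorem QOk.pop {G : Gf} {d : Dt} (w : G.WF) (c : Cmb G d) (h : QOk G d) {o : ℕ} {q : List ℕ}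
    (e : d.Q = o :: q) (k : Done G d o) : QOk G { d with Q := q } := by
  refine ⟨fun o' a => h.lt o' (e ▸ List.mem_cons_of_mem _ a), fun o' a => ?_⟩
  change o' ∈ q ∨ Done G d o' ∨ (d.st.get (G.hd o') = 2 ∧ rv o' ∈ q)
  rcases h.cmp o' a with b | b | ⟨b, b'⟩
  · rcases List.mem_cons.1 (e ▸ b) with rfl | b
    · exact .inr (.inl k)
    · exact .inl b
  · exact .inr (.inl b)
  · rcases List.mem_cons.1 (e ▸ b') with rfl | b'
    · refine .inr (.inl ?_)
      rcases k with k | k | k | k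
      · exact absurd b (by simpa using k)
      · exact .inl (by simpa using (c.pr _ (w.rv_lt a) k).2.1)
      · rw [Gf.tl_rv, Gf.hd_rv] at k
        exact .inr (.inr (.inl (by rw [← k, c.mt_mt (w.hd_lt a)])))
      · rw [Gf.tl_rv, Gf.hd_rv] at k
        exact .inr (.inr (.inr ⟨b, k.2.symm⟩))
    · exact .inr (.inr ⟨b, b'⟩)

namespace Cx
variable {T : Type} {X : Cx T} {s : Ip.St T} {N : Net} {d : Dt}

theorem Ok.lM_mem (h : X.Ok) : 0 ≤ lM X.P X.Bd ∧ lM X.P X.Bd ≤ X.Lg := by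
  have a : (1 : ℝ) ≤ X.P.D := by exact_mod_cast h.D_pos
  have b : (X.P.D : ℝ) ≤ X.Bd.Mu := by
    have := h.BD_le; rw [h.Mu] at this; exact_mod_cast (by omega : X.P.D ≤ X.Bd.Mu)
  exact ⟨Real.log_nonneg ((one_le_div (by linarith)).2 b),
    Real.log_le_log (div_pos (by linarith) (by linarith)) (div_le_self (by linarith) a)⟩

theorem Ok.offs_le (h : X.Ok) (c : Cmb X.G d) : X.offs d ≤ 2 * X.C.Z * X.G.n * X.Lg := by
  obtain ⟨l0, l1⟩ := h.lM_mem
  have a : ∑ v ∈ (range X.G.n).filter (isC X.G d),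
      (X.C.Z * (d.cw.get v + 1) : ℝ) * (lM X.P X.Bd - Real.log (d.cw.get v + 1)) ≤
      ∑ v ∈ (range X.G.n).filter (isC X.G d), (d.cw.get v : ℝ) * (2 * X.C.Z * lM X.P X.Bd) := by
    refine sum_le_sum fun v hv => ?_
    have k : (1 : ℝ) ≤ d.cw.get v := by exact_mod_cast (c.cw_le (mem_filter.1 hv).2).1
    have : 0 ≤ Real.log (d.cw.get v + 1) := Real.log_nonneg (by linarith)
    have z : (0 : ℝ) ≤ X.C.Z := Nat.cast_nonneg _
    calc _ ≤ (X.C.Z * (d.cw.get v + 1) : ℝ) * lM X.P X.Bd :=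
          mul_le_mul_of_nonneg_left (by linarith) (by positivity)
      _ ≤ (X.C.Z * (2 * d.cw.get v) : ℝ) * lM X.P X.Bd :=
          mul_le_mul_of_nonneg_right (mul_le_mul_of_nonneg_left (by linarith) z) l0
      _ = _ := by ring
  rw [← sum_mul, ← Nat.cast_sum, c.sum_cw] at a
  have b : X.nS d 2 + X.nS d 0 ≤ X.G.n := by
    rw [nS, nS, ← card_union_of_disjoint (disjoint_filter.2 fun v _ p q => by omega)]
    exact (card_le_card (union_subset (filter_subset ..) (filter_subset ..))).trans (card_range _).le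
  have b' : (X.nS d 2 : ℝ) + X.nS d 0 ≤ X.G.n := by exact_mod_cast b
  have z : (0 : ℝ) ≤ 2 * X.C.Z * lM X.P X.Bd := by positivity
  calc X.offs d ≤ (X.nS d 2 + X.nS d 0) * (2 * X.C.Z * lM X.P X.Bd) := by
        rw [offs, add_mul]; exact add_le_add a le_rfl
    _ ≤ X.G.n * (2 * X.C.Z * X.Lg) :=
        mul_le_mul b' (mul_le_mul_of_nonneg_left l1 (by positivity)) z (by positivity)
    _ = _ := by ring

theorem Ok.Psi_nonneg (h : X.Ok) (c : Cmb X.G d) : 0 ≤ X.Ψ d := by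
  have a := h.offs_le c
  have b : (X.xm : ℝ) ≤ ex (range X.G.n) d.mt.get := by exact_mod_cast h.xm _ c.isM
  have : (0 : ℝ) ≤ X.Au * ((ex (range X.G.n) d.mt.get : ℝ) - X.xm) :=
    mul_nonneg (Nat.cast_nonneg _) (by linarith)
  have : (0 : ℝ) ≤ X.C.Z * (8 * X.nS d 0 + 4 * X.nS d 1 + d.Q.length) := by positivity
  have : (0 : ℝ) ≤ X.Th d := Nat.cast_nonneg _
  rw [Ψ]; linarith

theorem Ok.pot_nonneg (h : X.Ok) (i : X.I s N) : 0 ≤ pot X.P X.Bd N :=
  sum_nonneg fun _ he => Inv.bar_nonneg h i he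

theorem Ok.Pt_le (h : X.Ok) (i : X.Inv (s, d) N) :
    0 ≤ X.Pt s ∧ X.Pt s ≤ X.Tot (s, d) N ∧
      X.Φ s + X.k.AP * pot X.P X.Bd N ≤ X.Tot (s, d) N := by
  have a := h.pot_nonneg i.il.1
  have b := h.Psi_nonneg i.cmb
  have c := h.ip.nonneg i.il.1
  have e : X.Φ s ≤ X.Pt s := phi_le_Pt
  have f : (X.k.AP : ℝ) ≤ X.κ := by exact_mod_cast le_of_add_le_left h.κ
  have z : (0 : ℝ) ≤ X.κ := Nat.cast_nonneg _
  have := mul_le_mul_of_nonneg_right f a
  have := mul_nonneg z a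
  have := mul_nonneg z b
  simp only [Tot]
  refine ⟨by linarith, by linarith, by linarith⟩

theorem Ok.near (h : X.Ok) (i : X.I s N) (a : Arcs X.P.D X.C X.G d N) {e : ℕ} (he : e ∈ N.E) :
    99 * s.rf.get e ≤ 100 * N.X e ∧ 100 * N.X e ≤ 101 * s.rf.get e := by
  obtain ⟨-, hA, -, hr, hn⟩ := h.ip.view i e he
  obtain ⟨p, q⟩ := hr.pos h.sm.1
  have k := (hn.slack h.D_pos hA p q).1
  rw [a.arc e he, arcOf_o1, abs_le] at k
  have k1 : (99 * s.rf.get e : ℝ) ≤ 100 * N.X e := by push_cast at k; linarith [k.1]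
  have k2 : (100 * N.X e : ℝ) ≤ 101 * s.rf.get e := by push_cast at k; linarith [k.2]
  exact ⟨by exact_mod_cast k1, by exact_mod_cast k2⟩

theorem trig2 {D : ℕ} {C : Cf} {c x : ℕ} {r : ℤ} (z : 0 < C.Z) :
    trig D C (snkA C c x) r ↔ (C.Ph : ℤ) * r < x * D := by
  have z' : (0 : ℤ) < C.Z := by exact_mod_cast z
  simp only [trig, snkA, true_and, if_true]
  push_cast
  rw [show (C.Ph : ℤ) * C.Z * r = C.Z * (C.Ph * r) by ring, mul_assoc]
  exact mul_lt_mul_iff_right₀ z'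

theorem trig4 {D : ℕ} {C : Cf} {v : ℕ} {r : ℤ} (z : 0 < C.Z) :
    trig D C (aU D C v) r ↔ (D : ℤ) ≤ r := by
  simp only [trig, aU, true_and]
  rw [if_neg (by omega)]

theorem Ok.calm (h : X.Ok) (i : X.Inv (s, d) N) (l : s.log = []) : Calm X.P.D X.C X.G d N := by
  have z : 0 < X.C.Z := by have := h.Z_pos; omega
  have nt : ∀ e ∈ N.E, ¬trig X.P.D X.C (arcOf X.P.D X.C X.G d e) (s.rf.get e) := fun e he k => by
    have := i.il.2 e he (i.arcs.arc e he ▸ k)
    rw [l] at this; cases this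
  refine ⟨fun c k => ?_, fun v k k' => ?_⟩
  · have he := (i.arcs.mem _).2 (has2.2 k)
    have a := nt _ he
    rw [arcOf2, trig2 z, not_lt] at a
    have b := (h.near i.il.1 i.arcs he).1
    have p : (0 : ℤ) ≤ X.C.Ph := Nat.cast_nonneg _
    have q : (0 : ℤ) ≤ (d.cw.get c + 1) * X.P.D := by positivity
    push_cast at a
    nlinarith [mul_le_mul_of_nonneg_left b p]
  · have he := (i.arcs.mem _).2 (has4.2 ⟨k, k'⟩)
    have a := nt _ he
    rw [arcOf4, trig4 z, not_le] at a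
    have b := (h.near (s := s) i.il.1 i.arcs he).2
    omega

/-- a triggered arc is a starved sink or a half full pending sink -/
theorem Ok.trig_cases (h : X.Ok) (i : X.Inv (s, d) N) {e : ℕ} (k : has X.G d e)
    (t : trig X.P.D X.C (s.arc.get e) (s.rf.get e)) :
    (e % 5 = 2 ∧ isC X.G d (e / 5) ∧ (99 * X.C.Ph : ℤ) * N.X (5 * (e / 5) + 2) ≤
      100 * (d.cw.get (e / 5) + 1) * X.P.D) ∨
    (e % 5 ≠ 2 ∧ e / 5 < X.G.n ∧ d.st.get (e / 5) = 0 ∧
      (99 * X.P.D : ℤ) ≤ 100 * N.X (5 * (e / 5) + 4)) := by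
  have z : 0 < X.C.Z := by have := h.Z_pos; omega
  have he := (i.arcs.mem _).2 k
  rw [(h.ip.view i.il.1 e he).1, i.arcs.arc e he] at t
  have b := h.near (s := s) i.il.1 i.arcs he
  obtain ⟨v, rfl | rfl | rfl | rfl | rfl⟩ := id_cases e
  · rw [arcOf0] at t; exact absurd t.1 (Nat.succ_ne_zero _)
  · rw [arcOf1] at t; exact absurd t.1 (Nat.succ_ne_zero _)
  · rw [arcOf2, trig2 z] at t
    rw [show (5 * v + 2) / 5 = v by omega]
    refine .inl ⟨by omega, has2.1 k, ?_⟩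
    have p : (0 : ℤ) ≤ X.C.Ph := Nat.cast_nonneg _
    have q : (0 : ℤ) ≤ (d.cw.get v + 1) * X.P.D := by positivity
    push_cast at t
    nlinarith [mul_le_mul_of_nonneg_left b.2 p]
  · rw [arcOf3] at t; exact absurd t.1 (Nat.succ_ne_zero _)
  · rw [arcOf4, trig4 z] at t
    rw [show (5 * v + 4) / 5 = v by omega]
    exact .inr ⟨by omega, (has4.1 k).1, (has4.1 k).2, by omega⟩

end Cx

end Crest.Agent.N325.P2
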